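import Vale.Agent.P319.S2.H920.Spec
import Vale.Agent.P319.SC.Gro

/-! P319, exponent `1/2`: piece A2 THIN (few points fix a given point) and piece A1 LOW. -/

namespace Vale.Agent.P319.S2.H736

open Finset Vale.Agent.P319.SC Vale.Agent.P319.SC.H323 Vale.Agent.P319.S2.H920

set_option linter.all false

/-- forget the levels above `L` -/
def down {V ι : Type} [Fintype V] [DecidableEq V] [DecidableEq ι] {L l : ℕ} (𝒞 : Cfg V ι l)
    (h : L ≤ l) : Cfg V ι L where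
  col := 𝒞.col
  dep k hk := 𝒞.dep k (hk.trans h)
  sub j k hj hk := 𝒞.sub j k (hj.trans h) (hk.trans h)
  ext k hk := 𝒞.ext k (by omega)
  eqv k hk := 𝒞.eqv k (by omega)
  anti2 k hk := 𝒞.anti2 k (by omega)
  anti3 k hk := 𝒞.anti3 k (by omega)
  cyc k hk := 𝒞.cyc k (by omega)

/-- **A1 LOW** -/
theorem low : LowStmt := by
  intro V ι _ _ _ L B l hB hl 𝒢 a h
  exact hB (down 𝒢 hl) a h

/-- **A2 THIN** -/
theorem thin : ThinStmt := by
  intro V ι _ _ _ L B l X ℱ y hB hL hl hCl hy hX h2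
  set S := X.filter (fun v => ((ℱ.fix v).cls ((ℱ.fix v).c1 y)).card = 1) with hS
  have hSX : ∀ v ∈ S, v ∈ X := fun v hv => (mem_filter.1 hv).1
  have hv1 : ∀ v ∈ S, ℱ.val v (ℱ.c2 v y) = 1 := by
    intro v hv
    have h := (mem_filter.1 hv).2
    rw [ℱ.fix_c1 (by omega), ← ℱ.val_eq_fix (by omega)] at h
    exact h
  have hBy : B ≤ (ℱ.cls (ℱ.c1 y)).card := low V ι L B (l + 1) hB (by omega) ℱ y h2
  have hsub : ∀ v ∈ S, ℱ.cls (ℱ.c1 v) ⊆ X := by
    intro v hv a ha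
    rw [ℱ.mem_cls] at ha
    exact hCl v a ha.symm (hSX v hv)
  -- `y` fixes `v`
  have hy1 : ∀ v ∈ S, ℱ.val y (ℱ.c2 y v) = 1 := by
    intro v hv
    by_contra hne
    have hpos := ℱ.val_pos y v
    have h3 : 2 ≤ ((ℱ.fix y).cls ((ℱ.fix y).c1 v)).card := by
      rw [ℱ.fix_c1 (by omega), ← ℱ.val_eq_fix (by omega)]
      omega
    have h4 := low V ι L B l hB hL (ℱ.fix y) v h3
    rw [ℱ.fix_c1 (by omega), ← ℱ.val_eq_fix (by omega)] at h4
    have h5 := ℱ.val_swap (by omega) v y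
    rw [hv1 v hv, mul_one] at h5
    have h6 : (ℱ.cls (ℱ.c1 v)).card ≤ X.card := card_le_card (hsub v hv)
    have h7 : B * B ≤ (ℱ.cls (ℱ.c1 y)).card * ℱ.val y (ℱ.c2 y v) := Nat.mul_le_mul hBy h4
    omega
  have hcard : ∀ v ∈ S, (ℱ.cls (ℱ.c1 v)).card = (ℱ.cls (ℱ.c1 y)).card := by
    intro v hv
    have h5 := ℱ.val_swap (by omega) v y
    rwa [hv1 v hv, hy1 v hv, mul_one, mul_one] at h5
  have huniq : ∀ v b, ℱ.val v (ℱ.c2 v b) = 1 → ∀ b', ℱ.c2 v b' = ℱ.c2 v b → b' = b := by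
    intro v b h b' hb'
    obtain ⟨c, hc⟩ := card_eq_one.1 h
    have e1 : b' ∈ (univ.filter fun z => ℱ.c2 v z = ℱ.c2 v b) := mem_filter.2 ⟨mem_univ _, hb'⟩
    have e2 : b ∈ (univ.filter fun z => ℱ.c2 v z = ℱ.c2 v b) := mem_filter.2 ⟨mem_univ _, rfl⟩
    rw [hc, mem_singleton] at e1 e2
    rw [e1, e2]
  have hinj : ∀ v ∈ S, ∀ v' ∈ S, ℱ.c1 v = ℱ.c1 v' → v = v' := by
    intro v hv v' hv' hc
    by_contra hne
    refine Gro.card_ne_one ℱ (by omega) (ρ := ℱ.c1 v) rfl hc.symm hne ?_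
    rw [card_eq_one]
    refine ⟨v', ?_⟩
    ext w
    rw [mem_filter, mem_singleton]
    constructor
    · rintro ⟨-, hw⟩
      -- `c2 v w = c2 v v'`
      obtain ⟨e, he⟩ := ℱ.ext2 (show 3 ≤ l + 1 by omega) hw.symm
      have h1 := ℱ.c3_sub (by omega) (he y)
      -- `c2 v y = c2 v (e y)` and `c2 v' y = c2 w (e y)`
      have h2 : e y = y := huniq v y (hv1 v hv) (e y) h1.2.1.symm
      have h3 : ℱ.c2 v' y = ℱ.c2 w y := by
        have := h1.2.2
        rwa [h2] at this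
      exact huniq y v' (hy1 v' hv') w (ℱ.c2_swap (by omega) h3).symm
    · rintro rfl
      exact ⟨mem_univ _, rfl⟩
  calc S.card * (ℱ.cls (ℱ.c1 y)).card = ∑ v ∈ S, (ℱ.cls (ℱ.c1 v)).card := by
        rw [sum_congr rfl hcard, sum_const, smul_eq_mul]
    _ = (S.biUnion fun v => ℱ.cls (ℱ.c1 v)).card := by
        rw [card_biUnion]
        intro v hv v' hv' hne
        rw [Function.onFun, disjoint_left]
        intro a ha ha'
        rw [ℱ.mem_cls] at ha ha'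
        exact hne (hinj v hv v' hv' (ha.symm.trans ha'))
    _ ≤ X.card := card_le_card (biUnion_subset.2 hsub)

end Vale.Agent.P319.S2.H736
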